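import Mathlib
import Vale.Agent.P247.Stmt

/-!
# P247, one torus: common definitions

`R4 = ℝ⁴` is the universal cover of `T⁴`; tori of the class of the last two coordinates are
written `φ (s, t) = (0, 0, s, t) + f (s, t)` with `f` smooth and `ℤ²`-periodic.
-/

open scoped ContDiff
open Set MeasureTheory Filter Topology Metric

noncomputable section

namespace Vale.Agent.P247.H74

abbrev R4 : Type := Fin 4 → ℝ

/-- The parameter plane, coordinates `(s, t)`. -/
abbrev P2 : Type := ℝ × ℝ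

/-- standard basis vectors of `ℝ⁴` -/
def e (i : Fin 4) : R4 := Pi.single i 1

/-- A closed `ℤ⁴`-periodic two-form, written `κ + d lam` with `κ` constant, `lam` periodic. -/
structure CForm where
  κ : R4 →L[ℝ] R4 →L[ℝ] ℝ
  κ_self : ∀ u, κ u u = 0
  lam : R4 → R4 →L[ℝ] ℝ
  lam_smooth : ContDiff ℝ ∞ lam
  lam_per : ∀ (n : Fin 4 → ℤ) (x : R4), lam (fun i => x i + n i) = lam x

/-- The value of the form `κ + d lam` at `x` on `u`, `v`. -/
def CForm.val (a : CForm) (x u v : R4) : ℝ :=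
  a.κ u v + (fderiv ℝ a.lam x u) v - (fderiv ℝ a.lam x v) u

/-- The data obtained from a hypersymplectic triple on `T⁴` after a rotation: an almost complex
structure `J`, two closed forms `η 0`, `η 1` which span the `J`-anti-invariant forms, and a closed
form `om` taming `J`. -/
structure Data where
  J : R4 → R4 →L[ℝ] R4
  J_smooth : ContDiff ℝ ∞ J
  J_per : ∀ (n : Fin 4 → ℤ) (x : R4), J (fun i => x i + n i) = J x
  J_sq : ∀ x u, J x (J x u) = -u
  η : Fin 2 → CForm
  om : CForm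
  /-- the matrix of `J` on the span of the `η j` -/
  c : R4 → Fin 2 → Fin 2 → ℝ
  c_smooth : ContDiff ℝ ∞ c
  c_per : ∀ (n : Fin 4 → ℤ) (x : R4), c (fun i => x i + n i) = c x
  /-- `η j (u, J v) = ∑ c j k η k (u, v)` -/
  η_J : ∀ j x u v, (η j).val x u (J x v) = ∑ k, c x j k * (η k).val x u v
  /-- a plane on which both `η j` vanish is a complex line -/
  nd : ∀ x u v, u ≠ 0 → (∀ j, (η j).val x u v = 0) → ∃ a b : ℝ, v = a • u + b • J x u
  /-- the matrix `c` is a complex structure -/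
  c_sq : ∀ x j l, ∑ k, c x j k * c x k l = if j = l then -1 else 0
  tame : ∀ x u, u ≠ 0 → 0 < om.val x u (J x u)
  /-- the torus class pairs to zero with the `η j` -/
  cls : ∀ j, (η j).κ (e 2) (e 3) = 0
  /-- the class of `η 0` has nonzero square -/
  kne : (η 0).κ (e 2) (e 0) * (η 0).κ (e 3) (e 1) - (η 0).κ (e 2) (e 1) * (η 0).κ (e 3) (e 0) ≠ 0

/-- the linear embedding `(s, t) ↦ (0, 0, s, t)` -/
def lin (p : P2) : R4 := ![0, 0, p.1, p.2]

/-- the map `φ` with periodic part `f` -/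
def phi (f : P2 → R4) (p : P2) : R4 := lin p + f p

/-- `∂ₛ` and `∂ₜ` -/
def ds {E : Type*} [NormedAddCommGroup E] [NormedSpace ℝ E] (g : P2 → E) (p : P2) : E :=
  fderiv ℝ g p (1, 0)
def dt {E : Type*} [NormedAddCommGroup E] [NormedSpace ℝ E] (g : P2 → E) (p : P2) : E :=
  fderiv ℝ g p (0, 1)

/-- `ℤ²`-periodic functions -/
def Per {E : Type*} (g : P2 → E) : Prop := ∀ (m n : ℤ) (p : P2), g (p.1 + m, p.2 + n) = g p

/-- the mean over the unit square -/
def mean {E : Type*} [NormedAddCommGroup E] [NormedSpace ℝ E] (g : P2 → E) : E :=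
  ∫ p in Icc (0 : P2) 1, g p

/-- `(f, τ)` is a `J`-holomorphic torus, with complex coordinate `s + τ t`. -/
structure JT (D : Data) (f : P2 → R4) (τ : ℂ) : Prop where
  smooth : ContDiff ℝ ∞ f
  per : Per f
  im_pos : 0 < τ.im
  eq : ∀ p, dt (phi f) p = τ.re • ds (phi f) p + τ.im • D.J (phi f p) (ds (phi f) p)

/-- immersed -/
def Imm (f : P2 → R4) : Prop := ∀ p, ds (phi f) p ≠ 0

/-- injective (as a map of `ℝ²` into `ℝ⁴`; equivalently an embedding of `T²` into `ℝ² × T²`) -/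
def Inj (f : P2 → R4) : Prop := Function.Injective (phi f)

/-- normalisation of the parametrisation -/
def Cen (f : P2 → R4) : Prop := mean (fun p => f p 2) = 0 ∧ mean (fun p => f p 3) = 0

/-- the flux of `η 0` -/
def flux (D : Data) (f : P2 → R4) : P2 :=
  (mean fun p => (D.η 0).lam (phi f p) (ds (phi f) p) - (D.η 0).κ (e 2) (f p)
      + (1 / 2) * (D.η 0).κ (f p) (ds f p),
   mean fun p => (D.η 0).lam (phi f p) (dt (phi f) p) - (D.η 0).κ (e 3) (f p)
      + (1 / 2) * (D.η 0).κ (f p) (dt f p))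

/-! ## The complex coordinate -/

/-- `u : ℂ → ℝ⁴` is `J`-holomorphic -/
def JH (D : Data) (u : ℂ → R4) : Prop :=
  ContDiff ℝ ∞ u ∧ ∀ z, fderiv ℝ u z Complex.I = D.J (u z) (fderiv ℝ u z 1)

/-- lift of a map of the torus `ℂ / (ℤ + τ ℤ)` -/
def Lift (τ : ℂ) (u : ℂ → R4) : Prop :=
  ∀ (m n : ℤ) z, u (z + m + n * τ) = u z + (m : ℝ) • e 2 + (n : ℝ) • e 3

/-- the coordinate `(s, t)` of `z = s + τ t` -/
def coord (τ : ℂ) (z : ℂ) : P2 := (z.re - τ.re * (z.im / τ.im), z.im / τ.im)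

/-- `φ` in the complex coordinate -/
def up (f : P2 → R4) (τ : ℂ) (z : ℂ) : R4 := phi f (coord τ z)

/-- `∂̄` -/
def dbar {E : Type*} [NormedAddCommGroup E] [NormedSpace ℂ E] (u : ℂ → E) (z : ℂ) : E :=
  (1 / 2 : ℂ) • (fderiv ℝ u z 1 + Complex.I • fderiv ℝ u z Complex.I)

/-- `C¹` convergence, locally uniform -/
def TendC1 {E F : Type*} [NormedAddCommGroup E] [NormedSpace ℝ E] [NormedAddCommGroup F]
    [NormedSpace ℝ F] (un : ℕ → E → F) (u : E → F) : Prop :=
  TendstoLocallyUniformly un u atTop ∧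
    TendstoLocallyUniformly (fun n => fderiv ℝ (un n)) (fderiv ℝ u) atTop

/-- `f n → f` with all derivatives, uniformly -/
def TendSmooth (fn : ℕ → P2 → R4) (f : P2 → R4) : Prop :=
  ∀ k : ℕ, TendstoUniformly (fun n p => iteratedFDeriv ℝ k (fn n) p) (iteratedFDeriv ℝ k f) atTop

/-! ## Winding numbers -/

/-- `f` has winding number `m` on the circle of centre `c` and radius `r` -/
def HasWinding (f : ℂ → ℂ) (c : ℂ) (r : ℝ) (m : ℤ) : Prop :=
  ∃ g : ℂ → ℂ, ContinuousOn g (sphere c r) ∧ ∀ z ∈ sphere c r, f z = (z - c) ^ m * Complex.exp (g z)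

end Vale.Agent.P247.H74
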