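import Vale.Agent.P247.H74.Defs

/-!
# P247, one torus: the statements of the packages

Each `XX_statement : Prop` is one package; prove `theorem XX : XX_statement` in your own file,
taking the statements of the packages it depends on as hypotheses.
-/

open scoped ContDiff Topology
open Set MeasureTheory Filter Metric Asymptotics

noncomputable section

namespace Vale.Agent.P247.H74

/-! ## W: winding numbers -/

/-- the winding number is unique -/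
def W1_statement : Prop := ∀ (f : ℂ → ℂ) (c : ℂ) (r : ℝ) (m m' : ℤ), 0 < r →
  HasWinding f c r m → HasWinding f c r m' → m = m'

/-- products -/
def W2_statement : Prop := ∀ (f g : ℂ → ℂ) (c : ℂ) (r : ℝ) (m m' : ℤ), 0 < r →
  HasWinding f c r m → HasWinding g c r m' → HasWinding (fun z => f z * g z) c r (m + m')

/-- a function without zeros on the closed disc has winding number zero -/
def W3_statement : Prop := ∀ (f : ℂ → ℂ) (c : ℂ) (r : ℝ), 0 < r → ContinuousOn f (closedBall c r) →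
  (∀ z ∈ closedBall c r, f z ≠ 0) → HasWinding f c r 0

/-- existence -/
def W4_statement : Prop := ∀ (f : ℂ → ℂ) (c : ℂ) (r : ℝ), 0 < r → ContinuousOn f (sphere c r) →
  (∀ z ∈ sphere c r, f z ≠ 0) → ∃ m, HasWinding f c r m

/-- Rouche -/
def W5_statement : Prop := ∀ (f g : ℂ → ℂ) (c : ℂ) (r : ℝ) (m : ℤ), 0 < r →
  ContinuousOn f (sphere c r) → ContinuousOn g (sphere c r) →
  (∀ z ∈ sphere c r, ‖g z - f z‖ < ‖f z‖) → HasWinding f c r m → HasWinding g c r m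

/-- leading term -/
def W6_statement : Prop := ∀ (f : ℂ → ℂ) (c a : ℂ) (m : ℤ), a ≠ 0 →
  (∀ᶠ z in 𝓝[≠] c, ContinuousAt f z) →
  (fun z => f z - a * (z - c) ^ m) =o[𝓝[≠] c] (fun z => (z - c) ^ m) →
  ∀ᶠ r in 𝓝[>] (0 : ℝ), HasWinding f c r m

/-- annulus -/
def W7_statement : Prop := ∀ (f : ℂ → ℂ) (c : ℂ) (r₁ r₂ : ℝ) (m : ℤ), 0 < r₁ → r₁ ≤ r₂ →
  ContinuousOn f (closedBall c r₂ \ ball c r₁) → (∀ z ∈ closedBall c r₂ \ ball c r₁, f z ≠ 0) →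
  HasWinding f c r₁ m → HasWinding f c r₂ m

/-- `TW`: on a torus the winding numbers around the discs outside which `β` has no zeros add up
to zero -/
def TW_statement : Prop := ∀ (τ : ℂ), 0 < τ.im → ∀ (β : ℂ → ℂ),
  (∀ (m n : ℤ) z, β (z + m + n * τ) = β z) →
  ∀ (N : ℕ) (z : Fin N → ℂ) (k : Fin N → ℤ) (r₀ r : ℝ), 0 < r₀ → r₀ < r →
  (∀ i j (m n : ℤ), (i ≠ j ∨ m ≠ 0 ∨ n ≠ 0) →
    Disjoint (closedBall (z i) r) (closedBall (z j + m + n * τ) r)) →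
  ContDiffOn ℝ 2 β {w | ∀ i (m n : ℤ), r₀ < dist w (z i + m + n * τ)} →
  (∀ w, (∀ i (m n : ℤ), r₀ < dist w (z i + m + n * τ)) → β w ≠ 0) →
  (∀ i, HasWinding β (z i) r (k i)) → ∑ i, k i = 0

/-! ## SP: the similarity principle, as an expansion -/

def SP_statement : Prop := ∀ (N : ℕ) (u : ℂ → Fin N → ℂ) (R C : ℝ), 0 < R →
  ContinuousOn u (ball 0 R) → ContDiffOn ℝ 1 u (ball 0 R \ {0}) →
  (∀ z ∈ ball (0 : ℂ) R \ {0}, ‖dbar u z‖ ≤ C * ‖u z‖) →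
  (∃ r > 0, ∀ z ∈ ball (0 : ℂ) r, u z = 0) ∨
  ∃ (m : ℕ) (a : Fin N → ℂ), a ≠ 0 ∧ (fun z => u z - z ^ m • a) =o[𝓝 0] (fun z => z ^ m)

/-! ## P4: local structure of `J`-holomorphic curves -/

/-- multiplication of `a` by the complex number `w`, for the complex structure `J x` -/
def cm (D : Data) (x : R4) (w : ℂ) (a : R4) : R4 := w.re • a + w.im • D.J x a

/-- the remainder after the leading term -/
def rem (D : Data) (u : ℂ → R4) (z₀ : ℂ) (k : ℕ) (a : R4) (z : ℂ) : R4 :=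
  u z - u z₀ - cm D (u z₀) ((z - z₀) ^ k) a

def P4_statement : Prop := ∀ (D : Data) (u : ℂ → R4) (z₀ : ℂ), JH D u →
  (∀ᶠ z in 𝓝 z₀, u z = u z₀) ∨
  ∃ (k : ℕ) (a : R4), 1 ≤ k ∧ a ≠ 0 ∧ ∀ j ≤ k + 1,
    (fun z => iteratedFDeriv ℝ j (rem D u z₀ k a) z) =O[𝓝 z₀] (fun z => ‖z - z₀‖ ^ (k + 1 - j))

/-- unique continuation -/
def P5_statement : Prop := ∀ (D : Data) (u v : ℂ → R4), JH D u → JH D v →
  (∃ z₀, ∀ᶠ z in 𝓝 z₀, u z = v z) → u = v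

/-- critical points and preimages are isolated -/
def P6_statement : Prop := ∀ (D : Data) (u : ℂ → R4), JH D u → (∃ z w, u z ≠ u w) →
  ∀ z₀, ∀ᶠ z in 𝓝[≠] z₀, fderiv ℝ u z 1 ≠ 0 ∧ u z ≠ u z₀

/-! ## L1: intersections with an immersed curve -/

/-- near `z₀` the curve `u` runs inside `v` -/
def LocIn (u v : ℂ → R4) (z₀ w₀ : ℂ) : Prop :=
  ∃ ε > 0, ∃ ζ : ℂ → ℂ, DifferentiableOn ℂ ζ (ball z₀ ε) ∧ ζ z₀ = w₀ ∧
    ∀ z ∈ ball z₀ ε, u z = v (ζ z)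

/-- isolated intersection -/
def Isol (u v : ℂ → R4) (z₀ w₀ : ℂ) : Prop :=
  ∃ ε > 0, ∀ z ∈ ball z₀ ε, ∀ w ∈ ball w₀ ε, u z = v w → z = z₀ ∧ w = w₀

/-- the intersection survives perturbations -/
def Stab (u v : ℂ → R4) (z₀ w₀ : ℂ) : Prop :=
  ∀ ε > 0, ∀ un vn : ℕ → ℂ → R4, (∀ n, ContDiff ℝ 1 (un n)) → (∀ n, ContDiff ℝ 1 (vn n)) →
    TendC1 un u → TendC1 vn v → ∀ᶠ n in atTop, ∃ z ∈ ball z₀ ε, ∃ w ∈ ball w₀ ε, un n z = vn n w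

def L1_statement : Prop := ∀ (D : Data) (u v : ℂ → R4) (z₀ w₀ : ℂ), JH D u → JH D v →
  u z₀ = v w₀ → fderiv ℝ v w₀ 1 ≠ 0 →
  LocIn u v z₀ w₀ ∨ (Isol u v z₀ w₀ ∧ Stab u v z₀ w₀)

/-- two tori which coincide somewhere are equal -/
def L2_statement : Prop := ∀ (D : Data) (f f' : P2 → R4) (τ τ' : ℂ), JT D f τ → JT D f' τ' →
  Cen f → Cen f' → Imm f' → Inj f' → (∃ z w, LocIn (up f τ) (up f' τ') z w) → f = f' ∧ τ = τ'

/-- no local coincidences of a torus with itself -/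
def S_statement : Prop := ∀ (D : Data) (u : ℂ → R4) (τ : ℂ), JH D u → 0 < τ.im → Lift τ u →
  ∀ z z', z ≠ z' → fderiv ℝ u z 1 ≠ 0 → fderiv ℝ u z' 1 ≠ 0 → ¬ LocIn u u z z'

/-! ## CE and K4: limits of embedded tori -/

/-- cusps are excluded -/
def CE_statement : Prop := ∀ (D : Data) (fn : ℕ → P2 → R4) (f : P2 → R4) (τ : ℂ), JT D f τ →
  (∀ n, ContDiff ℝ ∞ (fn n)) → (∀ n, Per (fn n)) → TendC1 fn f →
  (∀ n p q, phi (fn n) p ≠ phi f q) →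
  (∀ p, ∃ ε > 0, ∀ q ∈ ball p ε, ∀ q' ∈ ball p ε, phi f q = phi f q' → q = q') → Imm f

def K4_statement : Prop := ∀ (D : Data) (fn : ℕ → P2 → R4) (τn : ℕ → ℂ) (f : P2 → R4) (τ : ℂ),
  (∀ n, JT D (fn n) (τn n)) → JT D f τ → TendC1 fn f → Tendsto τn atTop (𝓝 τ) →
  (∀ n, Inj (fn n)) → (∀ n p q, phi (fn n) p ≠ phi f q) → Imm f ∧ Inj f

/-! ## N: kernel lemma -/

def N_statement : Prop := ∀ (c : P2 → Fin 2 → Fin 2 → ℝ) (τ : ℂ) (h : Fin 2 → P2 → ℝ), 0 < τ.im →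
  ContDiff ℝ ∞ c → Per c → (∀ p j l, ∑ k, c p j k * c p k l = if j = l then -1 else 0) →
  (∀ j, ContDiff ℝ 2 (h j)) → (∀ j, Per (h j)) →
  (∀ j p, dt (h j) p = ds (fun q => τ.re * h j q + τ.im * ∑ k, c q j k * h k q) p) →
  (∀ j p, h j p = 0) ∨ (∀ p, ∃ j, h j p ≠ 0)

/-! ## K3: local families -/

/-- a smooth family of normalised immersed tori, parametrised by the flux -/
structure Fam (D : Data) (U : Set P2) (F : P2 → P2 → R4) (T : P2 → ℂ) : Prop where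
  smooth : ContDiffOn ℝ ∞ (fun q : P2 × P2 => F q.1 q.2) (U ×ˢ univ)
  smoothT : ContDiffOn ℝ ∞ T U
  jt : ∀ y ∈ U, JT D (F y) (T y)
  cen : ∀ y ∈ U, Cen (F y)
  flux_eq : ∀ y ∈ U, flux D (F y) = y
  imm : ∀ y ∈ U, Imm (F y)

/-- the total map of a family -/
def tot (F : P2 → P2 → R4) (q : P2 × P2) : R4 := phi (F q.1) q.2

def K3_statement : Prop := ∀ (D : Data) (f₀ : P2 → R4) (τ₀ : ℂ), JT D f₀ τ₀ → Cen f₀ → Imm f₀ →
  ∃ ε > 0, ∃ (F : P2 → P2 → R4) (T : P2 → ℂ), Fam D (ball (flux D f₀) ε) F T ∧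
    F (flux D f₀) = f₀ ∧ T (flux D f₀) = τ₀ ∧
    ∀ (fn : ℕ → P2 → R4) (τn : ℕ → ℂ), (∀ n, JT D (fn n) (τn n)) → (∀ n, Cen (fn n)) →
      TendSmooth fn f₀ → Tendsto τn atTop (𝓝 τ₀) →
      ∀ᶠ n in atTop, flux D (fn n) ∈ ball (flux D f₀) ε ∧ fn n = F (flux D (fn n)) ∧
        τn n = T (flux D (fn n))

/-- the total map is an immersion -/
def DPsi_statement : Prop := ∀ (D : Data) (U : Set P2) (F : P2 → P2 → R4) (T : P2 → ℂ), IsOpen U →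
  Fam D U F T → ∀ y ∈ U, ∀ p, Function.Injective (fderiv ℝ (tot F) (y, p))

/-! ## K2: compactness -/

/-- energy and modulus bounds -/
def K2a_statement : Prop := ∀ D : Data, ∃ C > 0, ∀ (f : P2 → R4) (τ : ℂ), JT D f τ →
  1 / C ≤ τ.im ∧ ‖τ‖ ≤ C ∧ mean (fun p => ‖ds (phi f) p‖ ^ 2) ≤ C

/-- small energy on small discs, uniformly -/
def K2b_statement : Prop := ∀ D : Data, ∀ ε > 0, ∃ ρ > 0, ∀ (f : P2 → R4) (τ : ℂ), JT D f τ →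
  ∀ z : ℂ, ∫ w in closedBall z ρ, ‖fderiv ℝ (up f τ) w 1‖ ^ 2 ≤ ε

/-- the gradient bound on a disc of small energy -/
def K2h_statement : Prop := ∀ D : Data, ∃ ε > 0, ∃ C > 0, ∀ u : ℂ → R4, JH D u →
  ∀ (z : ℂ) (ρ : ℝ), 0 < ρ → ρ ≤ 1 → ∫ w in closedBall z ρ, ‖fderiv ℝ u w 1‖ ^ 2 ≤ ε →
  ‖fderiv ℝ u z 1‖ ≤ C / ρ

/-- the gradient bound -/
def K2g_statement : Prop := ∀ D : Data, ∃ C > 0, ∀ (f : P2 → R4) (τ : ℂ), JT D f τ →
  ∀ p, ‖ds (phi f) p‖ ≤ C ∧ ‖dt (phi f) p‖ ≤ C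

/-- all derivatives -/
def K2c_statement : Prop := ∀ D : Data, ∀ k : ℕ, 1 ≤ k → ∃ C, ∀ (f : P2 → R4) (τ : ℂ), JT D f τ →
  ∀ p, ‖iteratedFDeriv ℝ k f p‖ ≤ C

/-- extraction of a subsequence -/
def K2d_statement : Prop := ∀ fn : ℕ → P2 → R4, (∀ n, ContDiff ℝ ∞ (fn n)) → (∀ n, Per (fn n)) →
  (∀ k : ℕ, ∃ C, ∀ n p, ‖iteratedFDeriv ℝ k (fn n) p‖ ≤ C) →
  ∃ f : P2 → R4, ContDiff ℝ ∞ f ∧ Per f ∧ ∃ k : ℕ → ℕ, StrictMono k ∧
    TendSmooth (fun n => fn (k n)) f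

/-- `- (κ₀ (e 2, v), κ₀ (e 3, v))` -/
def Lk (D : Data) (v : R4) : P2 := (-(D.η 0).κ (e 2) v, -(D.η 0).κ (e 3) v)

/-- uniform bounds for the oscillation and the flux -/
def PB_statement : Prop := ∀ D : Data, ∃ C, ∀ (f : P2 → R4) (τ : ℂ), JT D f τ →
  (∀ p, ‖f p - mean f‖ ≤ C) ∧ ‖flux D f - Lk D (mean f)‖ ≤ C

def K2_statement : Prop := ∀ (D : Data) (fn : ℕ → P2 → R4) (τn : ℕ → ℂ),
  (∀ n, JT D (fn n) (τn n)) → (∀ n, Cen (fn n)) → (∃ C, ∀ n, ‖flux D (fn n)‖ ≤ C) →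
  ∃ (f : P2 → R4) (τ : ℂ) (k : ℕ → ℕ), StrictMono k ∧ JT D f τ ∧ Cen f ∧
    TendSmooth (fun n => fn (k n)) f ∧ Tendsto (fun n => τn (k n)) atTop (𝓝 τ)

/-! ## A: assembly -/

/-- a family near one embedded torus is injective -/
def INJ0_statement : Prop := ∀ (D : Data) (y₀ : P2) (R : ℝ) (F : P2 → P2 → R4) (T : P2 → ℂ), 0 < R →
  Fam D (ball y₀ R) F T → Inj (F y₀) →
  ∃ r > 0, r ≤ R ∧ InjOn (tot F) (ball y₀ r ×ˢ univ)

/-- injectivity propagates -/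
def INJ1_statement : Prop := ∀ (D : Data) (y₀ : P2) (r R : ℝ) (F : P2 → P2 → R4) (T : P2 → ℂ),
  0 < r → r ≤ R → Fam D (ball y₀ R) F T → InjOn (tot F) (ball y₀ r ×ˢ univ) →
  InjOn (tot F) (ball y₀ R ×ˢ univ)

/-- uniqueness of families -/
def UNI_statement : Prop := ∀ (D : Data) (U : Set P2) (F F' : P2 → P2 → R4) (T T' : P2 → ℂ),
  IsOpen U → IsPreconnected U → Fam D U F T → Fam D U F' T' → (∃ y ∈ U, F y = F' y) →
  ∀ y ∈ U, F y = F' y ∧ T y = T' y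

/-- extension of families -/
def EXT_statement : Prop := ∀ (D : Data) (y₀ : P2) (R : ℝ) (F : P2 → P2 → R4) (T : P2 → ℂ),
  0 < R → Fam D (ball y₀ R) F T → InjOn (tot F) (ball y₀ R ×ˢ univ) →
  ∃ R' > R, ∃ (F' : P2 → P2 → R4) (T' : P2 → ℂ), Fam D (ball y₀ R') F' T' ∧
    ∀ y ∈ ball y₀ R, F' y = F y ∧ T' y = T y

/-- the global family -/
def GF_statement : Prop := ∀ (D : Data) (f₀ : P2 → R4) (τ₀ : ℂ), JT D f₀ τ₀ → Cen f₀ → Imm f₀ →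
  Inj f₀ → ∃ (F : P2 → P2 → R4) (T : P2 → ℂ), Fam D univ F T ∧ Function.Injective (tot F) ∧
    F (flux D f₀) = f₀

/-- the total map of the global family is proper and onto -/
def SURJ_statement : Prop := ∀ (D : Data) (F : P2 → P2 → R4) (T : P2 → ℂ), Fam D univ F T →
  Function.Injective (tot F) → Function.Surjective (tot F) ∧
    ∀ C : ℝ, ∃ B : ℝ, ∀ y p, |tot F (y, p) 0| ≤ C → |tot F (y, p) 1| ≤ C → ‖y‖ ≤ B

/-- equivariance of the global family -/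
def EQ_statement : Prop := ∀ (D : Data) (F : P2 → P2 → R4) (T : P2 → ℂ), Fam D univ F T →
  Function.Injective (tot F) → ∀ (k l : ℤ) (y : P2),
  F (y + Lk D ((k : ℝ) • e 0 + (l : ℝ) • e 1)) = fun p => F y p + ((k : ℝ) • e 0 + (l : ℝ) • e 1)

/-- the fibration by tori -/
def MACH_statement : Prop := ∀ (D : Data) (f₀ : P2 → R4) (τ₀ : ℂ), JT D f₀ τ₀ → Imm f₀ → Inj f₀ →
  ∃ g : R4 → R4, ContDiff ℝ ∞ g ∧ (∀ (n : Fin 4 → ℤ) x, g (fun i => x i + n i) = fun i => g x i + n i) ∧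
    ∃ h : R4 → R4, ContDiff ℝ ∞ h ∧ (∀ x, g (h x) = x) ∧ (∀ x, h (g x) = x) ∧
      ∀ x u v, Stmt.Vertical g x u → Stmt.Vertical g x v → ∀ j, (D.η j).val x u v = 0

/-! ## LA, U, RP: from a hypersymplectic triple to the data -/

/-- an integral matrix acting on `ℝ⁴` -/
def Am (A : Matrix (Fin 4) (Fin 4) ℤ) (x : R4) : R4 := (A.map (Int.cast : ℤ → ℝ)).mulVec x

/-- `∑ bᵢ wᵢ`, pulled back by `A`, on `u`, `v` at `x` -/
def comb (w : Fin 3 → Stmt.Form 2) (b : Fin 3 → ℝ) (A : Matrix (Fin 4) (Fin 4) ℤ) (x u v : R4) : ℝ :=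
  ∑ i, b i * Stmt.val (w i) (Am A x) (Am A u) (Am A v)

def LA_statement : Prop := ∀ (w : Fin 3 → Stmt.Form 2), Stmt.Hypersymplectic w →
  ∀ b c : Fin 3 → ℝ, (∀ s t : ℝ, (∀ i, s * b i + t * c i = 0) → s = 0 ∧ t = 0) →
  ∀ A : Matrix (Fin 4) (Fin 4) ℤ, A.det = 1 → ∀ f : P2 → R4, ContDiff ℝ ∞ f → Per f →
  (∀ p, comb w b A (phi f p) (ds (phi f) p) (dt (phi f) p) = 0) →
  (∀ p, comb w c A (phi f p) (ds (phi f) p) (dt (phi f) p) = 0) →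
  ∃ D : Data, (∀ x u v, (D.η 0).val x u v = comb w b A x u v) ∧
    ∀ x u v, (D.η 1).val x u v = comb w c A x u v

/-- the Beltrami equation on the torus `ℂ / ℤ[i]` -/
def U1_statement : Prop := ∀ (μ : P2 → ℂ) (k : ℝ), ContDiff ℝ ∞ μ → Per μ → k < 1 →
  (∀ p, ‖μ p‖ ≤ k) → ∀ g : P2 → ℂ, ContDiff ℝ ∞ g → Per g →
  ∃ (h : P2 → ℂ) (c : ℂ), ContDiff ℝ ∞ h ∧ Per h ∧
    ∀ p, ds h p + Complex.I * dt h p = μ p * (ds h p - Complex.I * dt h p) + g p - c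

/-- uniformisation of the torus -/
def U_statement : Prop := ∀ M : P2 → ℂ, ContDiff ℝ ∞ M → Per M → (∀ p, 0 < (M p).im) →
  ∃ (τ : ℂ) (h : P2 → ℂ), 0 < τ.im ∧ ContDiff ℝ ∞ h ∧ Per h ∧
    (∀ p, τ + dt h p = M p * (1 + ds h p)) ∧ ∀ p, 1 + ds h p ≠ 0

/-- conformal reparametrisation -/
def RP_statement : Prop := ∀ (D : Data) (f : P2 → R4), ContDiff ℝ ∞ f → Per f →
  (∀ p, LinearIndependent ℝ ![ds (phi f) p, dt (phi f) p]) → Inj f →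
  (∀ j p, (D.η j).val (phi f p) (ds (phi f) p) (dt (phi f) p) = 0) →
  ∃ D' : Data, D'.η = D.η ∧ ∃ (f' : P2 → R4) (τ' : ℂ), JT D' f' τ' ∧ Imm f' ∧ Inj f'

/-- the final theorem -/
def FIN_statement : Prop := ∀ (w : Fin 3 → Stmt.Form 2), Stmt.Hypersymplectic w →
  Stmt.Normalized w → ∀ b c : Fin 3 → ℝ,
  (∀ s t : ℝ, (∀ i, s * b i + t * c i = 0) → s = 0 ∧ t = 0) →
  ∀ A : Matrix (Fin 4) (Fin 4) ℤ, A.det = 1 → ∀ i : ℝ × ℝ → Stmt.R4, ContDiff ℝ ∞ i →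
  (∀ s t, i (s + 1, t) = fun j => i (s, t) j + A j 2) →
  (∀ s t, i (s, t + 1) = fun j => i (s, t) j + A j 3) →
  (∀ p, Function.Injective (fderiv ℝ i p)) → Function.Injective i →
  (∀ p, ∑ j, b j * Stmt.val (w j) (i p) (fderiv ℝ i p (1, 0)) (fderiv ℝ i p (0, 1)) = 0) →
  (∀ p, ∑ j, c j * Stmt.val (w j) (i p) (fderiv ℝ i p (1, 0)) (fderiv ℝ i p (0, 1)) = 0) →
  ∃ γ : ℝ → Fin 3 → Stmt.Form 2, Stmt.Deformation w γ ∧ Stmt.Hyperkahler (γ 1)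

end Vale.Agent.P247.H74
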