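import Vale.Agent.P247.H74.Wien

/-!
# P247, one torus: the statements of the K3 group
-/

open scoped ContDiff Topology
open Set MeasureTheory Filter Metric Asymptotics

noncomputable section

namespace Vale.Agent.P247.H74

/-- `ℝ⁴`-valued functions -/
abbrev XR (m : ℕ) : Type := Fin 4 → WR m

/-- the function represented by `f` -/
def evv {m : ℕ} (f : XR m) (p : P2) : R4 := fun i => ev (f i) p

/-- the nonlinear operator, pointwise -/
def Fv (D : Data) (f : P2 → R4) (τ : ℂ) (p : P2) : R4 :=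
  dt (phi f) p - τ.re • ds (phi f) p - τ.im • D.J (phi f p) (ds (phi f) p)

/-- its linearisation at `(f, τ)` in the direction `(v, σ)`, pointwise -/
def LFv (D : Data) (f : P2 → R4) (τ : ℂ) (v : P2 → R4) (σ : ℂ) (p : P2) : R4 :=
  dt v p - τ.re • ds v p - τ.im • D.J (phi f p) (ds v p)
    - τ.im • (fderiv ℝ D.J (phi f p) (v p)) (ds (phi f) p)
    - σ.re • ds (phi f) p - σ.im • D.J (phi f p) (ds (phi f) p)

/-- the derivative of the flux -/
def dflux (D : Data) (f v : P2 → R4) : P2 :=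
  (mean fun p => (D.η 0).val (phi f p) (v p) (ds (phi f) p),
   mean fun p => (D.η 0).val (phi f p) (v p) (dt (phi f) p))

/-! ## K3-LIN -/

/-- the derivative of the operator along a family -/
def KL0_statement : Prop := ∀ (D : Data) (δ : ℝ) (g : ℝ → P2 → R4) (T : ℝ → ℂ), 0 < δ →
  ContDiffOn ℝ 3 (fun q : ℝ × P2 => g q.1 q.2) (Ioo (-δ) δ ×ˢ univ) → ContDiffOn ℝ 1 T (Ioo (-δ) δ) →
  ∀ p, HasDerivAt (fun ε => Fv D (g ε) (T ε) p)
    (LFv D (g 0) (T 0) (fun q => deriv (fun ε => g ε q) 0) (deriv T 0) p) 0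

/-- the two-forms pair to zero with the operator -/
def KL1_statement : Prop := ∀ (D : Data) (f : P2 → R4) (τ : ℂ), ContDiff ℝ 2 f → Per f →
  ∀ j, mean (fun p => (D.η j).val (phi f p) (ds (phi f) p) (Fv D f τ p)) = 0

/-- the derivative of the flux along a family -/
def KL2_statement : Prop := ∀ (D : Data) (δ : ℝ) (g : ℝ → P2 → R4), 0 < δ →
  ContDiffOn ℝ 3 (fun q : ℝ × P2 => g q.1 q.2) (Ioo (-δ) δ ×ˢ univ) →
  (∀ ε ∈ Ioo (-δ) δ, Per (g ε)) →
  HasDerivAt (fun ε => flux D (g ε)) (dflux D (g 0) (fun q => deriv (fun ε => g ε q) 0)) 0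

/-- a solution of the linearised equation which is tangent at one point is tangent everywhere -/
def KL3_statement : Prop := ∀ (D : Data) (f : P2 → R4) (τ : ℂ) (v : P2 → R4) (σ : ℂ), JT D f τ →
  ContDiff ℝ 3 v → Per v → (∀ p, LFv D f τ v σ p = 0) →
  (∃ p, ∀ j, (D.η j).val (phi f p) (v p) (ds (phi f) p) = 0) →
  ∀ p j, (D.η j).val (phi f p) (v p) (ds (phi f) p) = 0 ∧
    (D.η j).val (phi f p) (v p) (dt (phi f) p) = 0

/-- the kernel is trivial -/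
def KL4_statement : Prop := ∀ (D : Data) (f : P2 → R4) (τ : ℂ) (v : P2 → R4) (σ : ℂ), JT D f τ →
  Imm f → ContDiff ℝ 3 v → Per v → (∀ p, LFv D f τ v σ p = 0) → dflux D f v = 0 →
  mean (fun p => v p 2) = 0 → mean (fun p => v p 3) = 0 → (∀ p, v p = 0) ∧ σ = 0

/-- the obstruction fields -/
def KL5_statement : Prop := ∀ (D : Data) (f : P2 → R4), ContDiff ℝ ∞ f → Per f → Imm f →
  ∃ E : Fin 2 → P2 → R4, (∀ i, ContDiff ℝ ∞ (E i)) ∧ (∀ i, Per (E i)) ∧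
    (Matrix.of fun j i => mean fun p => (D.η j).val (phi f p) (ds (phi f) p) (E i p)).det ≠ 0

/-! ## K3-FRED -/

/-- the nonlinear operator on the spaces `XR m` -/
def KF0a_statement : Prop := ∀ (D : Data) (m : ℕ), 2 ≤ m →
  ∃ N : XR (m + 1) × ℂ → XR m, ContDiff ℝ ∞ N ∧ ∀ f τ p, evv (N (f, τ)) p = Fv D (evv f) τ p

/-- the flux -/
def KF0b_statement : Prop := ∀ (D : Data) (m : ℕ), 2 ≤ m →
  ∃ N : XR (m + 1) → P2, ContDiff ℝ ∞ N ∧ ∀ f, N f = flux D (evv f)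

/-- the pairings -/
def KF0c_statement : Prop := ∀ (D : Data) (m : ℕ), 2 ≤ m → ∀ (j : Fin 2) (E : P2 → R4),
  ContDiff ℝ ∞ E → Per E → ∃ N : XR (m + 1) → ℝ, ContDiff ℝ ∞ N ∧
    ∀ f, N f = mean fun p => (D.η j).val (phi (evv f) p) (ds (phi (evv f)) p) (E p)

/-- a smooth periodic `J`-complex frame of `ℝ⁴` -/
def KF1_statement : Prop := ∀ D : Data, ∃ A B : R4 → Matrix (Fin 4) (Fin 4) ℝ,
  (∀ i j, ContDiff ℝ ∞ fun x => A x i j) ∧ (∀ i j, ContDiff ℝ ∞ fun x => B x i j) ∧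
  (∀ (n : Fin 4 → ℤ) x, A (fun i => x i + n i) = A x) ∧
  (∀ (n : Fin 4 → ℤ) x, B (fun i => x i + n i) = B x) ∧
  (∀ x, A x * B x = 1) ∧ (∀ x, B x * A x = 1) ∧
  ∀ x (ξ : R4), (A x).mulVec ![-ξ 1, ξ 0, -ξ 3, ξ 2] = D.J x ((A x).mulVec ξ)

/-- the linearisation is an isomorphism plus a compact operator -/
def KF2_statement : Prop := ∀ (D : Data) (f : P2 → R4) (τ : ℂ) (m : ℕ), JT D f τ →
  ∃ (I : XR (m + 1) ≃L[ℝ] XR m) (K : XR (m + 1) →L[ℝ] XR m), IsCompactOperator K ∧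
    ∀ v p, evv (I v + K v) p = LFv D f τ (evv v) 0 p

/-- regularity -/
def KF4_statement : Prop := ∀ (D : Data) (m : ℕ), 2 ≤ m → ∀ (f : XR (m + 1)) (τ : ℂ), 0 < τ.im →
  (∀ p, Fv D (evv f) τ p = 0) → ContDiff ℝ ∞ (evv f)

end Vale.Agent.P247.H74
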