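import Vale.Agent.P247.H74.Sta

/-!
# P247, one torus: weighted Wiener algebras on `T²`

`WR m` is the Banach space of real functions on `T² = ℝ²/ℤ²` with `∑ |n|^m |f̂(n)| < ∞`.
The statements `H1` ... `H12` are its interface.
-/

open scoped ContDiff Topology
open Set MeasureTheory Filter Metric Asymptotics

noncomputable section

namespace Vale.Agent.P247.H74

/-- the weight on `ℤ²` -/
def wt (n : ℤ × ℤ) : ℝ := 1 + |(n.1 : ℝ)| + |(n.2 : ℝ)|

/-- absolutely summable families `a` with `a (-n) = conj (a n)` -/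
def realSub : Submodule ℝ (lp (fun _ : ℤ × ℤ => ℂ) 1) where
  carrier := {a | ∀ n, (a : ℤ × ℤ → ℂ) (-n) = (starRingEnd ℂ) ((a : ℤ × ℤ → ℂ) n)}
  add_mem' := by
    intro a b ha hb n
    simp only [lp.coeFn_add, Pi.add_apply, map_add]
    rw [ha n, hb n]
  zero_mem' := by
    intro n
    simp
  smul_mem' := by
    intro c a ha n
    simp only [lp.coeFn_smul, Pi.smul_apply]
    rw [ha n]
    simp

theorem isClosed_realSub : IsClosed (realSub : Set (lp (fun _ : ℤ × ℤ => ℂ) 1)) := by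
  have h : (realSub : Set (lp (fun _ : ℤ × ℤ => ℂ) 1)) =
      ⋂ n : ℤ × ℤ, {a : lp (fun _ : ℤ × ℤ => ℂ) 1 |
        (a : ℤ × ℤ → ℂ) (-n) = (starRingEnd ℂ) ((a : ℤ × ℤ → ℂ) n)} := by
    ext a
    simp only [mem_iInter, mem_setOf_eq]
    exact Iff.rfl
  rw [h]
  refine isClosed_iInter fun n => ?_
  have h1 : ∀ n : ℤ × ℤ, Continuous fun a : lp (fun _ : ℤ × ℤ => ℂ) 1 => (a : ℤ × ℤ → ℂ) n :=
    fun n => (lp.lipschitzWith_one_eval 1 n).continuous
  exact isClosed_eq (h1 _) (Complex.continuous_conj.comp (h1 n))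

/-- The space of real functions on `T²` with absolutely summable Fourier series with weight
`wt ^ m`; the entry of `a` at `n` is `wt n ^ m` times the Fourier coefficient. -/
def WR (_m : ℕ) : Type := realSub

instance (m : ℕ) : NormedAddCommGroup (WR m) := inferInstanceAs (NormedAddCommGroup realSub)
instance (m : ℕ) : NormedSpace ℝ (WR m) := inferInstanceAs (NormedSpace ℝ realSub)
instance (m : ℕ) : CompleteSpace (WR m) :=
  (isClosed_realSub.completeSpace_coe : CompleteSpace realSub)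

/-- Fourier coefficient -/
def cf {m : ℕ} (a : WR m) (n : ℤ × ℤ) : ℂ :=
  ((show realSub from a).1 : ℤ × ℤ → ℂ) n / ((wt n : ℝ) : ℂ) ^ m

/-- the character `e^{2 π i n p}` -/
def ch (n : ℤ × ℤ) (p : P2) : ℂ :=
  Complex.exp (2 * Real.pi * Complex.I * ((n.1 : ℂ) * (p.1 : ℂ) + (n.2 : ℂ) * (p.2 : ℂ)))

/-- the function represented by `a` -/
def ev {m : ℕ} (a : WR m) (p : P2) : ℝ := ∑' n : ℤ × ℤ, (cf a n * ch n p).re

/-! ## The interface -/

def H1_statement : Prop := ∀ (m : ℕ) (g : P2 → ℝ), ContDiff ℝ ∞ g → Per g → ∃ a : WR m, ev a = g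

def H2_statement : Prop := ∀ (m : ℕ) (a b : WR m), ev a = ev b → a = b

def H3_statement : Prop := ∀ m : ℕ, ∃ B : WR m →L[ℝ] WR m →L[ℝ] WR m,
  ∀ a b p, ev (B a b) p = ev a p * ev b p

/-- the constant functions -/
def H3c_statement : Prop := ∀ (m : ℕ), ∃ K : ℝ →L[ℝ] WR m, ∀ c p, ev (K c) p = c

/-- derivatives -/
def H4_statement : Prop := ∀ m : ℕ, ∃ S T : WR (m + 1) →L[ℝ] WR m,
  ∀ a p, ev (S a) p = ds (ev a) p ∧ ev (T a) p = dt (ev a) p

/-- the inclusions are compact -/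
def H5_statement : Prop := ∀ m : ℕ, ∃ J : WR (m + 1) →L[ℝ] WR m, IsCompactOperator J ∧
  ∀ a p, ev (J a) p = ev a p

/-- evaluation -/
def H6_statement : Prop := ∀ m : ℕ, ContDiff ℝ m (fun q : WR m × P2 => ev q.1 q.2) ∧
  ∀ a : WR m, Per (ev a)

/-- superposition operators -/
def H7_statement : Prop := ∀ m : ℕ, 2 ≤ m → ∀ F : R4 → ℝ, ContDiff ℝ ∞ F →
  (∀ (n : Fin 4 → ℤ) x, F (fun i => x i + n i) = F x) →
  ∃ N : (Fin 4 → WR m) → WR m, ContDiff ℝ ∞ N ∧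
    ∀ f p, ev (N f) p = F (lin p + fun i => ev (f i) p)

/-- the complex function of a pair -/
def evc {m : ℕ} (a : WR m × WR m) (p : P2) : ℂ := ev a.1 p + Complex.I * ev a.2 p

/-- the model operator is invertible -/
def H8_statement : Prop := ∀ (m : ℕ) (τ : ℂ), 0 < τ.im →
  ∃ Φ : (WR (m + 1) × WR (m + 1)) ≃L[ℝ] (WR m × WR m),
    ∀ a p, evc (Φ a) p = dt (evc a) p - τ * ds (evc a) p + Real.pi * τ.im * evc a p

/-- the mean -/
def H9_statement : Prop := ∀ m : ℕ, ∃ M : WR m →L[ℝ] ℝ, ∀ a, M a = mean (ev a)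

/-- the norm is bounded by sup norms of derivatives -/
def H12_statement : Prop := ∀ m : ℕ, ∃ C : ℝ, ∀ (a : WR m), ContDiff ℝ ∞ (ev a) → ∀ B : ℝ,
  (∀ j ≤ m + 3, ∀ p, ‖iteratedFDeriv ℝ j (ev a) p‖ ≤ B) → ‖a‖ ≤ C * B

/-- sup norms of derivatives are bounded by the norm -/
def H13_statement : Prop := ∀ m : ℕ, ∃ C : ℝ, ∀ (a : WR m), ∀ j ≤ m, ∀ p,
  ‖iteratedFDeriv ℝ j (ev a) p‖ ≤ C * ‖a‖

/-- bounded Laplacian (regularity for the compactness theorem): if `τ` stays in a compact set, the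
solution of `|τ|² u_ss - 2 τ₁ u_st + u_tt = g` gains two derivatives -/
def H14_statement : Prop := ∀ (m : ℕ) (K : ℝ), ∃ C : ℝ, ∀ τ : ℂ, 1 / K ≤ τ.im → ‖τ‖ ≤ K →
  ∀ (u : P2 → ℝ), ContDiff ℝ ∞ u → Per u → ∀ g : WR m,
  (∀ p, ‖τ‖ ^ 2 * ds (ds u) p - 2 * τ.re * ds (dt u) p + dt (dt u) p = ev g p) →
  ∃ a : WR (m + 2), (∀ p, ev a p = u p - mean u) ∧ ‖a‖ ≤ C * ‖g‖

end Vale.Agent.P247.H74
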